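import Vale.Agent.P050.R2.H300.Path

set_option linter.all false

/-!
Dense targets, module M3c: closing a segment of a path gives a cycle.
-/

open MeasureTheory Finset

namespace Vale.Agent.P050.Dense

open Vale.Agent.P050

namespace H261

variable {V : Type*} [Fintype V] [DecidableEq V]

lemma adj_HG {N : V → Finset V} {B γ : Finset V} {D : ℕ} (hN : Bip N B D) (hγ : γ ⊆ B)
    {b a : V} (hb : b ∈ γ) (ha : a ∈ N b) : (HG N γ).Adj b a := by
  rw [HG, SimpleGraph.fromRel_adj]
  refine ⟨?_, Or.inl ⟨hb, ha⟩⟩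
  rintro rfl
  exact hN.out b (hγ hb) b ha (hγ hb)

lemma mem_Bs_cons {p : V × V} {L : List (V × V)} {b : V} :
    b ∈ Bs (p :: L) ↔ b = p.1 ∨ b ∈ Bs L := by
  simp [Bs]

/-- the walk along the segment `L₁` -/
lemma seg_walk {N : V → Finset V} {B γ : Finset V} {D : ℕ} (hN : Bip N B D) (hγ : γ ⊆ B)
    {a₀ : V} {L₂ : List (V × V)} :
    ∀ L₁ : List (V × V), Pth N γ a₀ (L₁ ++ L₂) →
      ∃ w : (HG N γ).Walk (lastA a₀ (L₁ ++ L₂)) (lastA a₀ L₂), w.IsTrail ∧
        w.length = 2 * L₁.length ∧ ∀ e ∈ w.edges, ∀ b ∈ γ, b ∈ e → b ∈ Bs L₁ := by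
  intro L₁
  induction L₁ with
  | nil =>
    intro _
    refine ⟨SimpleGraph.Walk.nil, ?_, ?_, ?_⟩
    · simp
    · simp
    · simp
  | cons p L₁ ih =>
    obtain ⟨b, a⟩ := p
    intro hP
    obtain ⟨hP', hb, hbB, hcb, hab, hac⟩ := hP
    obtain ⟨w, hw, hl, he⟩ := ih hP'
    have h1 : (HG N γ).Adj a b := (adj_HG hN hγ hb hab).symm
    have h2 : (HG N γ).Adj b (lastA a₀ (L₁ ++ L₂)) := adj_HG hN hγ hb hcb
    have hbL : b ∉ Bs L₁ := by
      intro h
      apply hbB
      show b ∈ Bs (L₁ ++ L₂)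
      simp only [Bs, List.map_append, List.toFinset_append, mem_union] at h ⊢
      exact Or.inl h
    have hbw : ∀ e ∈ w.edges, b ∉ e := fun e hew hbe => hbL (he e hew b hb hbe)
    have key : ∃ w : (HG N γ).Walk a (lastA a₀ L₂), w.IsTrail ∧
        w.length = 2 * (L₁.length + 1) ∧ ∀ e ∈ w.edges, ∀ b' ∈ γ, b' ∈ e → b' = b ∨ b' ∈ Bs L₁ := by
      refine ⟨SimpleGraph.Walk.cons h1 (SimpleGraph.Walk.cons h2 w), ?_, ?_, ?_⟩
      · rw [SimpleGraph.Walk.isTrail_cons, SimpleGraph.Walk.isTrail_cons]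
        refine ⟨⟨hw, fun h => hbw _ h (by simp)⟩, ?_⟩
        rw [SimpleGraph.Walk.edges_cons, List.mem_cons, not_or]
        refine ⟨?_, fun h => hbw _ h (by simp)⟩
        intro h
        rw [Sym2.eq_iff] at h
        rcases h with h | h
        · exact h1.ne h.1
        · exact hac h.1
      · simp only [SimpleGraph.Walk.length_cons, hl]
        ring
      · intro e hew b' hb' hbe
        simp only [SimpleGraph.Walk.edges_cons, List.mem_cons] at hew
        have hne : ∀ c ∈ N b, b' ≠ c := by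
          rintro c hc rfl
          exact hN.out b (hγ hb) b' hc (hγ hb')
        rcases hew with rfl | rfl | hew
        · rw [Sym2.mem_iff] at hbe
          rcases hbe with hbe | hbe
          · exact absurd hbe (hne a hab)
          · exact Or.inl hbe
        · rw [Sym2.mem_iff] at hbe
          rcases hbe with hbe | hbe
          · exact Or.inl hbe
          · exact absurd hbe (hne _ hcb)
        · exact Or.inr (he e hew b' hb' hbe)
    obtain ⟨w', h1', h2', h3'⟩ := key
    exact ⟨w', h1', h2', fun e hew b' hb' hbe => mem_Bs_cons.2 (h3' e hew b' hb' hbe)⟩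

lemma trail_bound {N : V → Finset V} {γ : Finset V} {k : ℕ} (hg : GC N γ k) {v : V}
    (w : (HG N γ).Walk v v) (hw : w.IsTrail) (hn : 0 < w.length) : 2 * k ≤ w.length := by
  have hnil : w ≠ SimpleGraph.Walk.nil := by
    rintro rfl
    simp at hn
  have h1 := hw.isCycle_cycleBypass hnil
  exact (hg v _ h1).trans w.length_cycleBypass_le_length

end H261

open H261

variable {V : Type*} [Fintype V] [DecidableEq V]

/-- M3c: closing a segment of a path gives a cycle. `L₁` is the later part. -/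
theorem pth_close {N : V → Finset V} {B γ : Finset V} {D : ℕ} (hN : Bip N B D) (hγ : γ ⊆ B)
    {k : ℕ} (hk : 2 ≤ k) (hg : GC N γ k) {a₀ : V} {L₁ L₂ : List (V × V)}
    (hP : Pth N γ a₀ (L₁ ++ L₂)) (hne : L₁ ≠ [])
    (h : lastA a₀ (L₁ ++ L₂) = lastA a₀ L₂) : k ≤ L₁.length := by
  obtain ⟨w, hw, hl, -⟩ := seg_walk hN hγ L₁ hP
  have hpos : 0 < L₁.length := List.length_pos_of_ne_nil hne
  have h1 := trail_bound hg (w.copy h rfl) (by simpa using hw) (by
    rw [SimpleGraph.Walk.length_copy, hl]; omega)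
  rw [SimpleGraph.Walk.length_copy, hl] at h1
  omega

theorem pth_close' {N : V → Finset V} {B γ : Finset V} {D : ℕ} (hN : Bip N B D) (hγ : γ ⊆ B)
    {k : ℕ} (hk : 2 ≤ k) (hg : GC N γ k) {a₀ : V} {L₁ L₂ : List (V × V)}
    (hP : Pth N γ a₀ (L₁ ++ L₂)) (hne : L₁ ≠ []) {b : V} (hb : b ∈ γ) (hbL : b ∉ Bs L₁)
    (h1 : lastA a₀ (L₁ ++ L₂) ∈ N b) (h2 : lastA a₀ L₂ ∈ N b) : k ≤ L₁.length + 1 := by
  by_cases heq : lastA a₀ (L₁ ++ L₂) = lastA a₀ L₂
  · exact (pth_close hN hγ hk hg hP hne heq).trans (Nat.le_succ _)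
  obtain ⟨w, hw, hl, he⟩ := seg_walk hN hγ L₁ hP
  have hbw : ∀ e ∈ w.edges, b ∉ e := fun e hew hbe => hbL (he e hew b hb hbe)
  have a1 : (HG N γ).Adj b (lastA a₀ (L₁ ++ L₂)) := adj_HG hN hγ hb h1
  have a2 : (HG N γ).Adj (lastA a₀ L₂) b := (adj_HG hN hγ hb h2).symm
  have htr : (SimpleGraph.Walk.cons a1 (w.concat a2)).IsTrail := by
    rw [SimpleGraph.Walk.isTrail_cons]
    constructor
    · rw [SimpleGraph.Walk.isTrail_def, SimpleGraph.Walk.edges_concat, List.concat_eq_append,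
        List.nodup_append]
      refine ⟨hw.edges_nodup, by simp, ?_⟩
      intro e hew e' he' hee
      rw [List.mem_singleton] at he'
      subst he'
      subst hee
      exact hbw _ hew (by simp)
    · rw [SimpleGraph.Walk.edges_concat, List.concat_eq_append, List.mem_append, not_or]
      refine ⟨fun h => hbw _ h (by simp), ?_⟩
      rw [List.mem_singleton]
      intro h
      rw [Sym2.eq_iff] at h
      rcases h with h | h
      · exact a2.ne h.1.symm
      · exact heq h.2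
  have h3 := trail_bound hg _ htr (by simp)
  rw [SimpleGraph.Walk.length_cons, SimpleGraph.Walk.length_concat, hl] at h3
  omega

end Vale.Agent.P050.Dense
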